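import Vale.Agent.H72.PowerDiff

/-!
# P042: a new lower bound for sets without cube differences

For `h(x) = x^3` we show `r_h(N) ≥ c * N^γ` with `γ = (2 + log 14 / log 91) / 3 > 0.8616`,
using Ruzsa's digit construction with the modulus `91 = 7 * 13` and a set of `14` residues
modulo `91` no two of which differ by a cubic residue.
-/

namespace Vale.Agent.Results.P042.C_CubeDifferences

open Vale.Agent.H72

/-- Fourteen residues modulo `91`, no two of which differ by a cube modulo `91`. -/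
def cubeSet : Finset ℕ := {0, 15, 20, 38, 40, 44, 50, 56, 60, 66, 76, 82, 86, 88}

theorem cubeSet_card : cubeSet.card = 14 := by decide

theorem cubeSet_lt : ∀ a ∈ cubeSet, a < 91 := by decide

set_option maxRecDepth 100000 in
theorem cubeSet_check : ∀ a ∈ cubeSet, ∀ b ∈ cubeSet, a ≠ b →
    ∀ x ∈ Finset.range 91, (b + x ^ 3) % 91 ≠ a % 91 := by decide

theorem cubeSet_powFree : PowFree 3 91 cubeSet := powFree_of_check (by norm_num) cubeSet_check

theorem squarefree_91 : Squarefree 91 := by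
  rw [Nat.squarefree_iff_prime_squarefree]
  intro p hp hdvd
  have hle : p * p ≤ 91 := Nat.le_of_dvd (by norm_num) hdvd
  have hp9 : p ≤ 9 := by nlinarith
  interval_cases p <;> first | omega | (norm_num at hp)

set_option exponentiation.threshold 2000 in
theorem pow_compare : (91 : ℝ) ^ 731 < (14 : ℝ) ^ 1250 := by norm_num

theorem exponent_gt : (8616 : ℝ) / 10000 < (2 + Real.log 14 / Real.log 91) / 3 := by
  have h91 : (0 : ℝ) < Real.log 91 := Real.log_pos (by norm_num)
  have h1 : Real.log ((91 : ℝ) ^ 731) < Real.log ((14 : ℝ) ^ 1250) :=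
    Real.log_lt_log (by positivity) pow_compare
  rw [Real.log_pow, Real.log_pow] at h1
  have h2 : (731 : ℝ) / 1250 < Real.log 14 / Real.log 91 := by
    rw [div_lt_div_iff₀ (by norm_num) h91]
    push_cast at h1
    linarith
  linarith

theorem result :
    (8616 : ℝ) / 10000 < (2 + Real.log 14 / Real.log 91) / 3 ∧
    ∃ c : ℝ, 0 < c ∧ ∀ N : ℕ, 1 ≤ N → ∃ A : Finset ℕ, A ⊆ Finset.Icc 1 N ∧
      (∀ a ∈ A, ∀ b ∈ A, ∀ n : ℕ, 0 < n → a ≠ b + n ^ 3) ∧
      c * (N : ℝ) ^ ((2 + Real.log 14 / Real.log 91) / 3) ≤ (A.card : ℝ) := by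
  refine ⟨exponent_gt, 1 / 115934, by norm_num, ?_⟩
  intro N hN
  have hne : cubeSet.Nonempty := ⟨0, by decide⟩
  have hexp : ((91 ^ 3 : ℕ) : ℝ) ^ ((2 + Real.log 14 / Real.log 91) / 3) =
      ((cubeSet.card * 91 ^ (3 - 1) : ℕ) : ℝ) := by
    have h := ruzsa_exponent (k := 3) (m := 91) (a := 14) (by norm_num) (by norm_num)
      (by norm_num)
    rw [cubeSet_card]
    have e : ((3 : ℕ) : ℝ) - 1 = 2 := by norm_num
    rw [e] at h
    exact_mod_cast h
  have hγ0 : (0 : ℝ) ≤ (2 + Real.log 14 / Real.log 91) / 3 := by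
    have := exponent_gt
    linarith
  obtain ⟨S, hS1, hS2, hS3⟩ := ruzsa_lower_bound (k := 3) (m := 91) (by norm_num) (by norm_num)
    squarefree_91 cubeSet_lt cubeSet_powFree hne hγ0 hexp.le N hN
  refine ⟨S, hS1, hS2, ?_⟩
  have e2 : ((cubeSet.card * 91 ^ (3 - 1) : ℕ) : ℝ) = 115934 := by
    rw [cubeSet_card]
    norm_num
  rw [e2] at hS3
  calc 1 / 115934 * (N : ℝ) ^ ((2 + Real.log 14 / Real.log 91) / 3)
      = (N : ℝ) ^ ((2 + Real.log 14 / Real.log 91) / 3) / 115934 := by ring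
    _ ≤ (S.card : ℝ) := hS3

end Vale.Agent.Results.P042.C_CubeDifferences
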