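import Vale.Agent.Results.P042.D_KthPowersUniform

/-!
# P042: lower bounds for `r_h(N)`, `h(x) = x^k`, in the problem's own form

The three statements of `D_KthPowersUniform`, with `r_h(N)` written out: `r_h(N)` is the
greatest element `m` of the set of sizes of subsets `A` of `{1, …, N}` no two elements of which
differ by a positive `k`-th power.  Each statement says that this greatest element exists and
is at least `c * N^γ`: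

1. for every `k ≥ 2` and every prime `p` with `2k ∣ p - 1`,
   `γ = 1 - 1/k + log (k p / (p + k - 1)) / (k log p)`;
2. for every `k ≥ 1` such that `2k + 1` is prime,
   `γ = 1 - 1/k + log k / (k log (2k + 1))`;
3. for `k = 3`, `γ = (2 + log 14 / log 91) / 3 > 0.8616`.
-/

namespace Vale.Agent.Results.P042.D0_KthPowersMaxForm

/-- The set of sizes of subsets of `{1, …, N}` without `k`-th power differences has a greatest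
element: it contains `0` and is bounded by `N`. -/
theorem exists_greatest_size (k N : ℕ) :
    ∃ m : ℕ, IsGreatest {m : ℕ | ∃ A : Finset ℕ, A ⊆ Finset.Icc 1 N ∧
      (∀ a ∈ A, ∀ b ∈ A, ∀ n : ℕ, 0 < n → a ≠ b + n ^ k) ∧ A.card = m} m := by
  have hne : {m : ℕ | ∃ A : Finset ℕ, A ⊆ Finset.Icc 1 N ∧
      (∀ a ∈ A, ∀ b ∈ A, ∀ n : ℕ, 0 < n → a ≠ b + n ^ k) ∧ A.card = m}.Nonempty :=
    ⟨0, ∅, Finset.empty_subset _, by simp, rfl⟩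
  have hbdd : BddAbove {m : ℕ | ∃ A : Finset ℕ, A ⊆ Finset.Icc 1 N ∧
      (∀ a ∈ A, ∀ b ∈ A, ∀ n : ℕ, 0 < n → a ≠ b + n ^ k) ∧ A.card = m} := by
    refine ⟨N, ?_⟩
    rintro m ⟨A, hA, -, rfl⟩
    have h := Finset.card_le_card hA
    simpa using h
  exact ⟨_, Nat.sSup_mem hne hbdd, fun m hm => le_csSup hbdd hm⟩

/-- From a set of size at least `c * N^γ` to the greatest size. -/
theorem max_form (k : ℕ) (γ : ℝ)
    (h : ∃ c : ℝ, 0 < c ∧ ∀ N : ℕ, 1 ≤ N → ∃ A : Finset ℕ, A ⊆ Finset.Icc 1 N ∧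
      (∀ a ∈ A, ∀ b ∈ A, ∀ n : ℕ, 0 < n → a ≠ b + n ^ k) ∧ c * (N : ℝ) ^ γ ≤ (A.card : ℝ)) :
    ∃ c : ℝ, 0 < c ∧ ∀ N : ℕ, 1 ≤ N → ∃ m : ℕ,
      IsGreatest {m : ℕ | ∃ A : Finset ℕ, A ⊆ Finset.Icc 1 N ∧
        (∀ a ∈ A, ∀ b ∈ A, ∀ n : ℕ, 0 < n → a ≠ b + n ^ k) ∧ A.card = m} m ∧
      c * (N : ℝ) ^ γ ≤ (m : ℝ) := by
  obtain ⟨c, hc, hN⟩ := h
  refine ⟨c, hc, fun N hN1 => ?_⟩
  obtain ⟨m, hm⟩ := exists_greatest_size k N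
  obtain ⟨A, hA1, hA2, hA3⟩ := hN N hN1
  have hle : A.card ≤ m := hm.2 ⟨A, hA1, hA2, rfl⟩
  exact ⟨m, hm, hA3.trans (by exact_mod_cast hle)⟩

theorem result :
    (∀ k p : ℕ, 2 ≤ k → p.Prime → 2 * k ∣ p - 1 →
      ∃ c : ℝ, 0 < c ∧ ∀ N : ℕ, 1 ≤ N → ∃ m : ℕ,
        IsGreatest {m : ℕ | ∃ A : Finset ℕ, A ⊆ Finset.Icc 1 N ∧
          (∀ a ∈ A, ∀ b ∈ A, ∀ n : ℕ, 0 < n → a ≠ b + n ^ k) ∧ A.card = m} m ∧
        c * (N : ℝ) ^ (1 - 1 / (k : ℝ) +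
          Real.log ((k : ℝ) * p / ((p : ℝ) + k - 1)) / ((k : ℝ) * Real.log p)) ≤ (m : ℝ)) ∧
    (∀ k : ℕ, 1 ≤ k → (2 * k + 1).Prime →
      ∃ c : ℝ, 0 < c ∧ ∀ N : ℕ, 1 ≤ N → ∃ m : ℕ,
        IsGreatest {m : ℕ | ∃ A : Finset ℕ, A ⊆ Finset.Icc 1 N ∧
          (∀ a ∈ A, ∀ b ∈ A, ∀ n : ℕ, 0 < n → a ≠ b + n ^ k) ∧ A.card = m} m ∧
        c * (N : ℝ) ^ (1 - 1 / (k : ℝ) +
          Real.log (k : ℝ) / ((k : ℝ) * Real.log ((2 * k + 1 : ℕ) : ℝ))) ≤ (m : ℝ)) ∧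
    ((8616 : ℝ) / 10000 < (2 + Real.log 14 / Real.log 91) / 3 ∧
      ∃ c : ℝ, 0 < c ∧ ∀ N : ℕ, 1 ≤ N → ∃ m : ℕ,
        IsGreatest {m : ℕ | ∃ A : Finset ℕ, A ⊆ Finset.Icc 1 N ∧
          (∀ a ∈ A, ∀ b ∈ A, ∀ n : ℕ, 0 < n → a ≠ b + n ^ 3) ∧ A.card = m} m ∧
        c * (N : ℝ) ^ ((2 + Real.log 14 / Real.log 91) / 3) ≤ (m : ℝ)) :=
  ⟨fun k p hk hp h => max_form k _ (D_KthPowersUniform.result.1 k p hk hp h),
    fun k hk hp => max_form k _ (D_KthPowersUniform.result.2.1 k hk hp),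
    D_KthPowersUniform.result.2.2.1, max_form 3 _ D_KthPowersUniform.result.2.2.2⟩

end Vale.Agent.Results.P042.D0_KthPowersMaxForm
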