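import Vale.Agent.H72.PowerGreedy
import Vale.Agent.Results.P042.C_CubeDifferences

/-!
# P042: lower bounds for sets without `k`-th power differences, for every `k`

Three statements about `h(x) = x^k`, each of the form `r_h(N) ≥ c * N^γ`:

1. for every `k ≥ 2` and every prime `p` with `2k ∣ p - 1`,
   `γ = 1 - 1/k + log (k p / (p + k - 1)) / (k log p)`;
2. for every `k ≥ 1` such that `2k + 1` is prime,
   `γ = 1 - 1/k + log k / (k log (2k + 1))`;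
3. for `k = 3`, `γ = (2 + log 14 / log 91) / 3 > 0.8616` (the hand-in `C_CubeDifferences`).

All three come from the digit construction of Ruzsa with a set of residues no two of which
differ by a `k`-th power residue: a maximal such set modulo `p` in (1), the residues
`0, 2, …, 2k - 2` modulo `2k + 1` in (2), fourteen residues modulo `91` in (3).
-/

namespace Vale.Agent.Results.P042.D_KthPowersUniform

theorem result :
    (∀ k p : ℕ, 2 ≤ k → p.Prime → 2 * k ∣ p - 1 →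
      ∃ c : ℝ, 0 < c ∧ ∀ N : ℕ, 1 ≤ N → ∃ A : Finset ℕ, A ⊆ Finset.Icc 1 N ∧
        (∀ a ∈ A, ∀ b ∈ A, ∀ n : ℕ, 0 < n → a ≠ b + n ^ k) ∧
        c * (N : ℝ) ^ (1 - 1 / (k : ℝ) +
          Real.log ((k : ℝ) * p / ((p : ℝ) + k - 1)) / ((k : ℝ) * Real.log p)) ≤
          (A.card : ℝ)) ∧
    (∀ k : ℕ, 1 ≤ k → (2 * k + 1).Prime →
      ∃ c : ℝ, 0 < c ∧ ∀ N : ℕ, 1 ≤ N → ∃ A : Finset ℕ, A ⊆ Finset.Icc 1 N ∧
        (∀ a ∈ A, ∀ b ∈ A, ∀ n : ℕ, 0 < n → a ≠ b + n ^ k) ∧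
        c * (N : ℝ) ^ (1 - 1 / (k : ℝ) +
          Real.log (k : ℝ) / ((k : ℝ) * Real.log ((2 * k + 1 : ℕ) : ℝ))) ≤
          (A.card : ℝ)) ∧
    ((8616 : ℝ) / 10000 < (2 + Real.log 14 / Real.log 91) / 3 ∧
      ∃ c : ℝ, 0 < c ∧ ∀ N : ℕ, 1 ≤ N → ∃ A : Finset ℕ, A ⊆ Finset.Icc 1 N ∧
        (∀ a ∈ A, ∀ b ∈ A, ∀ n : ℕ, 0 < n → a ≠ b + n ^ 3) ∧
        c * (N : ℝ) ^ ((2 + Real.log 14 / Real.log 91) / 3) ≤ (A.card : ℝ)) :=
  ⟨fun k p hk hp h => Vale.Agent.H72.kth_power_greedy_bound k p hk hp h,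
    fun k hk hp => Vale.Agent.H72.kth_power_cycle_bound k hk hp,
    Vale.Agent.Results.P042.C_CubeDifferences.result⟩

end Vale.Agent.Results.P042.D_KthPowersUniform
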